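import Vale.Agent.Lib.P176.Main

/-!
# P176, third form: literal negation of Q1

All notions are the elementary ones of the problem file: projective resolutions are exact sequences
of projective modules, `pd` is the minimal length of a projective resolution, `findim` is the
supremum of the finite projective dimensions of the finitely generated left modules.
-/

namespace Vale.Agent.Results.P176.FindimInfinite

open CategoryTheory

/-- The left `A`-module `M` has a projective resolution of length at most `n`: an exact sequence
`⋯ → P 2 → P 1 → P 0 → M → 0` with maps `d i : P (i + 1) → P i` and `ε : P 0 → M`, where all `P i` are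
projective and `P i = 0` for `i > n`. -/
def HasResolution (A : Type) [Ring A] (M : Type) [AddCommGroup M] [Module A M] (n : ℕ) : Prop :=
  ∃ (P : ℕ → Type) (_ : ∀ i, AddCommGroup (P i)) (_ : ∀ i, Module A (P i))
    (d : ∀ i, P (i + 1) →ₗ[A] P i) (ε : P 0 →ₗ[A] M),
    (∀ i, Module.Projective A (P i)) ∧ (∀ i, n < i → Subsingleton (P i)) ∧
      (∀ i, Function.Exact (d (i + 1)) (d i)) ∧ Function.Exact (d 0) ε ∧ Function.Surjective ε

/-- `pd_A M ∈ {0, 1, 2, …} ∪ {∞}`, the minimal length of a projective resolution of `M` (the infimum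
of the empty set is `∞`). -/
noncomputable def pd (A : Type) [Ring A] (M : Type) [AddCommGroup M] [Module A M] : ℕ∞ :=
  ⨅ (n : ℕ) (_ : HasResolution A M n), (n : ℕ∞)

/-- `findim A = sup {pd_A M : M a finitely generated left A-module, pd_A M < ∞}`. -/
noncomputable def findim (A : Type) [Ring A] : ℕ∞ :=
  ⨆ (M : Type) (_ : AddCommGroup M) (_ : Module A M) (_ : Module.Finite A M) (_ : pd A M < ⊤),
    pd A M

/-! ### comparison with Mathlib's projective dimension -/

section

variable {A : Type} [Ring A]

private theorem step {P M : Type} [AddCommGroup P] [Module A P]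
    [AddCommGroup M] [Module A M] (f : P →ₗ[A] M) (hP : Module.Projective A P)
    (hf : Function.Surjective f) (n : ℕ) :
    HasProjectiveDimensionLE (ModuleCat.of A M) (n + 1) ↔
      HasProjectiveDimensionLE (ModuleCat.of A (LinearMap.ker f)) n := by
  let S : ShortComplex (ModuleCat.{0} A) :=
    ShortComplex.mk (ModuleCat.ofHom (LinearMap.ker f).subtype) (ModuleCat.ofHom f) (by
      ext x
      exact x.2)
  have hS : S.ShortExact := by
    refine ShortComplex.ShortExact.mk' ?_ ?_ ?_
    · rw [ShortComplex.moduleCat_exact_iff]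
      intro x hx
      exact ⟨⟨x, hx⟩, rfl⟩
    · exact (ModuleCat.mono_iff_injective _).2 Subtype.val_injective
    · exact (ModuleCat.epi_iff_surjective _).2 hf
  have := hS.hasProjectiveDimensionLT_X₃_iff n ((IsProjective.iff_projective P).1 hP)
  exact this

private theorem pdLE_of_res (n : ℕ) : ∀ (M : Type) [AddCommGroup M] [Module A M],
    HasResolution A M n → HasProjectiveDimensionLE (ModuleCat.of A M) n := by
  induction n with
  | zero =>
    rintro M _ _ ⟨P, _, _, d, ε, hP, h0, hex, he, hs⟩
    have hsub : Subsingleton (P 1) := h0 1 (by norm_num)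
    have hinj : Function.Injective ε := by
      rw [← LinearMap.ker_eq_bot, LinearMap.ker_eq_bot']
      intro x hx
      obtain ⟨y, rfl⟩ := (he x).1 hx
      rw [Subsingleton.elim y 0, map_zero]
    have := hP 0
    have hM : Module.Projective A M :=
      Module.Projective.of_equiv (LinearEquiv.ofBijective ε ⟨hinj, hs⟩)
    rw [← projective_iff_hasProjectiveDimensionLE_zero, ← IsProjective.iff_projective]
    exact hM
  | succ n ih =>
    rintro M _ _ ⟨P, i1, i2, d, ε, hP, h0, hex, he, hs⟩
    rw [step ε (hP 0) hs]
    refine ih _ ⟨fun i => P (i + 1), fun i => i1 (i + 1), fun i => i2 (i + 1), fun i => d (i + 1),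
      (d 0).codRestrict (LinearMap.ker ε) (fun x => (he _).2 ⟨x, rfl⟩), fun i => hP (i + 1),
      fun i hi => h0 (i + 1) (by omega), fun i => hex (i + 1), ?_, ?_⟩
    · intro x
      rw [← hex 0 x]
      exact ⟨fun h => congrArg Subtype.val h, fun h => Subtype.ext h⟩
    · rintro ⟨y, hy⟩
      obtain ⟨x, hx⟩ := (he y).1 hy
      exact ⟨x, Subtype.ext hx⟩

private theorem res_of_pdLE (n : ℕ) : ∀ (M : Type) [AddCommGroup M] [Module A M],
    HasProjectiveDimensionLE (ModuleCat.of A M) n → HasResolution A M n := by
  induction n with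
  | zero =>
    intro M _ _ h
    rw [← projective_iff_hasProjectiveDimensionLE_zero, ← IsProjective.iff_projective] at h
    have hM : Module.Projective A M := h
    let P : ℕ → ModuleCat.{0} A := fun i => match i with
      | 0 => ModuleCat.of A M
      | _ + 1 => ModuleCat.of A PUnit.{1}
    have hsub : ∀ i, Subsingleton (P (i + 1)) := fun i =>
      inferInstanceAs (Subsingleton PUnit.{1})
    refine ⟨fun i => P i, fun i => inferInstance, fun i => inferInstance, fun i => 0,
      (LinearMap.id : M →ₗ[A] M), ?_, ?_, ?_, ?_, ?_⟩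
    · intro i
      cases i with
      | zero => exact hM
      | succ i => exact inferInstanceAs (Module.Projective A PUnit.{1})
    · intro i hi
      obtain ⟨j, rfl⟩ := Nat.exists_eq_succ_of_ne_zero hi.ne'
      exact hsub j
    · intro i x
      have := hsub i
      exact ⟨fun _ => ⟨0, Subsingleton.elim _ _⟩, fun _ => rfl⟩
    · intro x
      constructor
      · intro hx
        have hx' : x = 0 := hx
        exact ⟨0, by rw [hx', map_zero]⟩
      · rintro ⟨y, rfl⟩
        rfl
    · exact fun x => ⟨x, rfl⟩
  | succ n ih =>
    intro M _ _ h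
    let f : (M →₀ A) →ₗ[A] M := Finsupp.linearCombination A id
    have hf : Function.Surjective f := fun m => ⟨Finsupp.single m 1, by simp [f]⟩
    rw [step f inferInstance hf] at h
    obtain ⟨P', i1, i2, d', ε', hP', h0', hex', he', hs'⟩ := ih _ h
    let P : ℕ → ModuleCat.{0} A := fun i => match i with
      | 0 => ModuleCat.of A (M →₀ A)
      | j + 1 => ModuleCat.of A (P' j)
    let d : ∀ i, P (i + 1) →ₗ[A] P i := fun i => match i with
      | 0 => ((LinearMap.ker f).subtype.comp ε' : P' 0 →ₗ[A] (M →₀ A))
      | j + 1 => (d' j : P' (j + 1) →ₗ[A] P' j)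
    refine ⟨fun i => P i, fun i => inferInstance, fun i => inferInstance, d, f, ?_, ?_, ?_, ?_, hf⟩
    · intro i
      cases i with
      | zero => exact inferInstanceAs (Module.Projective A (M →₀ A))
      | succ i => exact hP' i
    · intro i hi
      obtain ⟨j, rfl⟩ := Nat.exists_eq_succ_of_ne_zero (show i ≠ 0 by omega)
      exact h0' j (by omega)
    · intro i
      cases i with
      | zero =>
        intro x
        change ((ε' x : LinearMap.ker f) : M →₀ A) = 0 ↔ x ∈ Set.range (d' 0)
        rw [← he' x]
        exact ⟨fun h => Subtype.ext h, fun h => congrArg Subtype.val h⟩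
      | succ i => exact hex' i
    · intro x
      constructor
      · intro hx
        obtain ⟨y, hy⟩ := hs' ⟨x, hx⟩
        exact ⟨y, congrArg Subtype.val hy⟩
      · rintro ⟨y, rfl⟩
        exact (ε' y).2

private theorem pd_eq {M : Type} [AddCommGroup M] [Module A M] {n : ℕ}
    (h : projectiveDimension (ModuleCat.of A M) = ((n : ℕ) : WithBot ℕ∞)) : pd A M = n := by
  refine le_antisymm (iInf₂_le n (res_of_pdLE n M ((projectiveDimension_le_iff _ _).1 h.le))) ?_
  refine le_iInf₂ fun m hm => ?_
  have h1 := (projectiveDimension_le_iff _ _).2 (pdLE_of_res m M hm)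
  rw [h] at h1
  exact_mod_cast h1

end

/-- **The finitistic dimension conjecture (Q1) is false.** It is not true that `findim A < ∞` for
every finite-dimensional algebra `A` over a field; in fact over every field of characteristic zero
there is a finite-dimensional algebra `A` with `findim A = ∞`. -/
theorem result :
    (¬ ∀ (k : Type) [Field k] (A : Type) [Ring A] [Algebra k A] [FiniteDimensional k A],
        findim A < ⊤) ∧
      ∀ (k : Type) [Field k] [CharZero k],
        ∃ (A : Type) (_ : Ring A) (_ : Algebra k A), FiniteDimensional k A ∧ findim A = ⊤ := by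
  have key : ∀ (k : Type) [Field k] [CharZero k],
      ∃ (A : Type) (_ : Ring A) (_ : Algebra k A), FiniteDimensional k A ∧ findim A = ⊤ := by
    intro k _ _
    refine ⟨Vale.Agent.P176.A k, inferInstance, inferInstance, Vale.Agent.P176.finite_A, ?_⟩
    rw [ENat.eq_top_iff_forall_ge]
    intro n
    have h1 : pd (Vale.Agent.P176.A k) (Vale.Agent.P176.GM k (n + 1)) = (4 + 2 * n : ℕ) :=
      pd_eq (Vale.Agent.P176.pd_GM n)
    have h2 : pd (Vale.Agent.P176.A k) (Vale.Agent.P176.GM k (n + 1)) < ⊤ := by
      rw [h1]
      exact ENat.natCast_lt_top _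
    refine le_trans ?_ (le_iSup_of_le (Vale.Agent.P176.GM k (n + 1) : Type)
      (le_iSup_of_le inferInstance (le_iSup_of_le inferInstance
        (le_iSup_of_le (Vale.Agent.P176.finite_GM (n + 1)) (le_iSup_of_le h2 le_rfl)))))
    rw [h1]
    exact_mod_cast (by omega : n ≤ 4 + 2 * n)
  refine ⟨fun h => ?_, key⟩
  obtain ⟨A, i1, i2, h1, h2⟩ := key ℚ
  exact (h ℚ A).ne h2

end Vale.Agent.Results.P176.FindimInfinite
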