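import Vale.Agent.Lib.P176.Main

/-!
# P176: the (little) finitistic dimension conjecture is false

Over every field of characteristic zero there is a finite-dimensional algebra with finitely generated
modules of arbitrarily large finite projective dimension.
-/

namespace Vale.Agent.Results.P176.FinitisticFalse

open CategoryTheory

/-- The little finitistic dimension of a ring `A`: the supremum in `{0, 1, 2, …, ∞}` of all natural
numbers `d` which are the projective dimension of a finitely generated left `A`-module.
`projectiveDimension` is Mathlib's projective dimension of an object of an abelian category. (Mathlib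
gives the zero module projective dimension `⊥`; this does not change the supremum.) -/
noncomputable def findim (A : Type) [Ring A] : ℕ∞ :=
  ⨆ (d : ℕ) (_ : ∃ M : ModuleCat.{0} A, Module.Finite A M ∧
    projectiveDimension M = ((d : ℕ) : WithBot ℕ∞)), (d : ℕ∞)

/-- **The finitistic dimension conjecture is false.** Over every field `k` of characteristic zero
there is a finite-dimensional algebra `A` with `findim A = ∞`; more precisely, for every `n` there is a
finitely generated left `A`-module whose projective dimension is exactly `4 + 2 n`. -/
theorem result (k : Type) [Field k] [CharZero k] :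
    ∃ (A : Type) (_ : Ring A) (_ : Algebra k A), Module.Finite k A ∧ findim A = ⊤ ∧
      ∀ n : ℕ, ∃ M : ModuleCat.{0} A, Module.Finite A M ∧
        projectiveDimension M = ((4 + 2 * n : ℕ) : WithBot ℕ∞) := by
  have key : ∀ n : ℕ, ∃ M : ModuleCat.{0} (Vale.Agent.P176.A k),
      Module.Finite (Vale.Agent.P176.A k) M ∧
        projectiveDimension M = ((4 + 2 * n : ℕ) : WithBot ℕ∞) := fun n =>
    ⟨Vale.Agent.P176.GM k (n + 1), Vale.Agent.P176.finite_GM (n + 1), Vale.Agent.P176.pd_GM n⟩
  refine ⟨Vale.Agent.P176.A k, inferInstance, inferInstance, Vale.Agent.P176.finite_A, ?_, key⟩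
  rw [findim, ENat.eq_top_iff_forall_ge]
  intro n
  refine le_trans ?_ (le_iSup₂_of_le (4 + 2 * n) (key n) le_rfl)
  exact_mod_cast (by omega : n ≤ 4 + 2 * n)

end Vale.Agent.Results.P176.FinitisticFalse
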