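import Vale.Agent.Lib.P176.Main

/-!
# P176, elementary form

The finitistic dimension conjecture is false, stated with explicit finite projective resolutions
(no category theory in the statement).
-/

namespace Vale.Agent.Results.P176.UnboundedFiniteResolutions

open CategoryTheory

/-- `PdLE A n M`: the left `A`-module `M` has a projective resolution of length at most `n`. For
`n = 0`: `M` is projective. For `n + 1`: some surjection `P → M` from a projective module has a kernel
with a projective resolution of length at most `n`. -/
def PdLE (A : Type) [Ring A] : ℕ → (M : Type) → [AddCommGroup M] → [Module A M] → Prop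
  | 0, M, _, _ => Module.Projective A M
  | n + 1, M, _, _ => ∃ (P : Type) (_ : AddCommGroup P) (_ : Module A P) (f : P →ₗ[A] M),
      Module.Projective A P ∧ Function.Surjective f ∧ PdLE A n (LinearMap.ker f)

/-- the short exact sequence `0 → ker f → P → M → 0` -/
private theorem step {A : Type} [Ring A] {P M : Type} [AddCommGroup P] [Module A P]
    [AddCommGroup M] [Module A M] (f : P →ₗ[A] M) (hP : Module.Projective A P)
    (hf : Function.Surjective f) (n : ℕ) :
    HasProjectiveDimensionLE (ModuleCat.of A M) (n + 1) ↔
      HasProjectiveDimensionLE (ModuleCat.of A (LinearMap.ker f)) n := by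
  let S : ShortComplex (ModuleCat.{0} A) :=
    ShortComplex.mk (ModuleCat.ofHom (LinearMap.ker f).subtype) (ModuleCat.ofHom f) (by
      ext x
      exact x.2)
  have hS : S.ShortExact := by
    refine ShortComplex.ShortExact.mk' ?_ ?_ ?_
    · rw [ShortComplex.moduleCat_exact_iff]
      intro x hx
      exact ⟨⟨x, hx⟩, rfl⟩
    · exact (ModuleCat.mono_iff_injective _).2 Subtype.val_injective
    · exact (ModuleCat.epi_iff_surjective _).2 hf
  have := hS.hasProjectiveDimensionLT_X₃_iff n ((IsProjective.iff_projective P).1 hP)
  exact this

private theorem pdLE_iff {A : Type} [Ring A] (n : ℕ) : ∀ (M : Type) [AddCommGroup M] [Module A M],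
    PdLE A n M ↔ HasProjectiveDimensionLE (ModuleCat.of A M) n := by
  induction n with
  | zero =>
    intro M _ _
    rw [← projective_iff_hasProjectiveDimensionLE_zero, ← IsProjective.iff_projective]
    rfl
  | succ n ih =>
    intro M _ _
    constructor
    · rintro ⟨P, _, _, f, hP, hf, h⟩
      rw [step f hP hf]
      exact (ih _).1 h
    · intro h
      refine ⟨M →₀ A, inferInstance, inferInstance, Finsupp.linearCombination A id,
        inferInstance, ?_, ?_⟩
      · intro m
        exact ⟨Finsupp.single m 1, by simp⟩
      · rw [ih]
        rw [← step _ inferInstance (fun m => ⟨Finsupp.single m 1, by simp⟩)]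
        exact h

/-- **The finitistic dimension conjecture is false.** Over every field `k` of characteristic zero
there is a finite-dimensional `k`-algebra `A` such that for every `N` some finitely generated left
`A`-module has a finite projective resolution, but none of length at most `N`. -/
theorem result (k : Type) [Field k] [CharZero k] :
    ∃ (A : Type) (_ : Ring A) (_ : Algebra k A), Module.Finite k A ∧
      ∀ N : ℕ, ∃ (M : Type) (_ : AddCommGroup M) (_ : Module A M),
        Module.Finite A M ∧ (∃ d : ℕ, PdLE A d M) ∧ ¬ PdLE A N M := by
  refine ⟨Vale.Agent.P176.A k, inferInstance, inferInstance, Vale.Agent.P176.finite_A,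
    fun N => ?_⟩
  have h := Vale.Agent.P176.pd_GM (k := k) N
  refine ⟨Vale.Agent.P176.GM k (N + 1), inferInstance, inferInstance,
    Vale.Agent.P176.finite_GM (N + 1), ⟨4 + 2 * N, ?_⟩, fun hN => ?_⟩
  · rw [pdLE_iff]
    exact (projectiveDimension_le_iff _ _).1 h.le
  · rw [pdLE_iff] at hN
    have h2 := (projectiveDimension_le_iff _ _).2 hN
    have h3 : ((4 + 2 * N : ℕ) : WithBot ℕ∞) ≤ (N : WithBot ℕ∞) := h.symm.le.trans h2
    have h4 : 4 + 2 * N ≤ N := by exact_mod_cast h3
    omega

end Vale.Agent.Results.P176.UnboundedFiniteResolutions
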